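import Vale.Agent.P011.D4Y.H691.Ch
import Vale.Agent.P011.D4X.H657.Zx

/-!
Trialitarian groups over a non cyclic cubic extension with nontrivial Tits class: the involution
`x ↦ ι (star x)` and its relations with the product, with `J` and with the similitudes.
-/

open Vale.Agent.P011.MPQ Vale.Agent.P011.D4 Vale.Agent.P011.D4.Oct Vale.Agent.P011.D4.H24
  Vale.Agent.P011.D4X Vale.Agent.P011.E6

set_option linter.unusedSectionVars false

namespace Vale.Agent.P011.D4Y

section im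

variable {k E : Type} [Field k] [Field E] [Algebra k E] {a b c : kˣ} {ρ σ ι : E ≃ₐ[k] E} {α : E}

theorem fst_Im (x : OctL E a b c) : (Im ι x).fst = qmap ι (star x.fst) := rfl

theorem snd_Im (x : OctL E a b c) : (Im ι x).snd = -qmap ι x.snd := by
  change qmap ι (-x.snd) = _
  rw [qmap_neg]

theorem Im_zero : Im ι (0 : OctL E a b c) = 0 := by
  ext1
  · rw [fst_Im, fst_zero, star_zero, qmap_zero]
  · rw [snd_Im, snd_zero, qmap_zero, neg_zero]

theorem Im_one : Im ι (1 : OctL E a b c) = 1 := by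
  ext1
  · rw [fst_Im, fst_one, star_one, qmap_one]
  · rw [snd_Im, snd_one, qmap_zero, neg_zero]

theorem Im_add (x y : OctL E a b c) : Im ι (x + y) = Im ι x + Im ι y := by
  ext1
  · rw [fst_Im, fst_add, star_add, qmap_add]; rfl
  · rw [snd_Im, snd_add, qmap_add, neg_add, snd_add, snd_Im, snd_Im]

theorem Im_smul (t : E) (x : OctL E a b c) : Im ι (t • x) = ι t • Im ι x := by
  ext1
  · rw [fst_Im, fst_smul, QuaternionAlgebra.star_smul, qmap_smul]; rfl
  · rw [snd_Im, snd_smul, qmap_smul, snd_smul, snd_Im, smul_neg]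

theorem Im_neg (x : OctL E a b c) : Im ι (-x) = -Im ι x := by
  have h := Im_smul (ι := ι) (-1 : E) x
  rw [neg_smul, one_smul, map_neg, map_one, neg_smul, one_smul] at h
  exact h

theorem Im_sub (x y : OctL E a b c) : Im ι (x - y) = Im ι x - Im ι y := by
  rw [sub_eq_add_neg, Im_add, Im_neg, sub_eq_add_neg]

theorem Im_sum {s : Type} (S : Finset s) (f : s → OctL E a b c) :
    Im ι (∑ i ∈ S, f i) = ∑ i ∈ S, Im ι (f i) := by
  classical
  induction S using Finset.induction_on with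
  | empty => rw [Finset.sum_empty, Finset.sum_empty, Im_zero]
  | insert i S hi ih => rw [Finset.sum_insert hi, Finset.sum_insert hi, Im_add, ih]

theorem Im_Im (hι : ∀ x, ι (ι x) = x) (x : OctL E a b c) : Im ι (Im ι x) = x := by
  have h : ∀ y : Qt (up E a) (up E b), qmap ι (qmap ι y) = y := fun y => by ext <;> simp [hι]
  ext1
  · rw [fst_Im, fst_Im, ← qmap_star, star_star, h]
  · rw [snd_Im, snd_Im, qmap_neg, neg_neg, h]

theorem Im_inj (hι : ∀ x, ι (ι x) = x) {x y : OctL E a b c} (h : Im ι x = Im ι y) : x = y := by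
  rw [← Im_Im hι x, h, Im_Im hι]

theorem Im_omap (hισ : ∀ x, ι (σ x) = σ (ι x)) (x : OctL E a b c) :
    Im ι (omap σ x) = omap σ (Im ι x) := by
  have h : ∀ y : Qt (up E a) (up E b), qmap ι (qmap σ y) = qmap σ (qmap ι y) := fun y => by
    ext <;> simp [hισ]
  ext1
  · rw [fst_Im, fst_omap, fst_omap, fst_Im, ← qmap_star, h]
  · rw [snd_Im, snd_omap, snd_omap, snd_Im, h, qmap_neg]

theorem Im_star (x : OctL E a b c) : Im ι (star x) = star (Im ι x) := by
  unfold Im
  rw [omap_star]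

theorem Im_mul (x y : OctL E a b c) : Im ι (x * y) = Im ι y * Im ι x := by
  unfold Im
  rw [star_mul, omap_mul]

theorem Im_oup (x : Oct a b c) : Im ι (oup E x) = oup E (star x) := by
  unfold Im
  rw [← oup_star, omap_oup]

theorem norm_Im (x : OctL E a b c) : norm (Im ι x) = ι (norm x) := by
  have h : norm (omap ι (star x)) = ι (norm (star x)) := by
    change nrd (qmap ι (star x).fst) - ((up E c : Eˣ) : E) * nrd (qmap ι (star x).snd) =
      ι (nrd (star x).fst - ((up E c : Eˣ) : E) * nrd (star x).snd)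
    have hc : ι ((up E c : Eˣ) : E) = ((up E c : Eˣ) : E) := ι.commutes _
    rw [nrd_qmap, nrd_qmap, map_sub, map_mul, hc]
  rw [Im, h, Oct.norm_star]

theorem bil_Im (x y : OctL E a b c) : bil (Im ι x) (Im ι y) = ι (bil x y) := by
  unfold bil
  rw [← Im_add, norm_Im, norm_Im, norm_Im, map_sub, map_sub]

/-- The involution reverses the product. -/
theorem Im_tri (hρ3 : ∀ x, ρ (ρ (ρ x)) = x) (hιρ : ∀ x, ι (ρ x) = ρ (ρ (ι x)))
    (x y : OctL E a b c) : Im ι (tri ρ x y) = tri ρ (Im ι y) (Im ι x) := by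
  have h1 : ∀ z : OctL E a b c, omap ι (omap ρ z) = omap ρ (omap ρ (omap ι z)) := fun z => by
    apply Oct.ext <;> ext <;> simp [omap, qmap, hιρ]
  have h2 : ∀ z : OctL E a b c, omap ι (omap ρ (omap ρ z)) = omap ρ (omap ι z) := fun z => by
    rw [h1, h1]
    apply Oct.ext <;> ext <;> simp [omap, qmap, hρ3]
  unfold Im tri
  rw [star_mul, omap_mul, ← omap_star, ← omap_star, ← omap_star, star_star, star_star, h2, h1,
    ← omap_star ι, ← omap_star ι, star_star, star_star]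

section rel

variable {q q' q'' : E}

theorem iq1 (h : HJ a ρ σ α q q' q'') (hιρ : ∀ x, ι (ρ x) = ρ (ρ (ι x))) (hιq : ι q = q'') :
    ι q' = q' := by
  rw [← h.r0, hιρ, hιq, h.r2, h.r0]

theorem iq2 (hι : ∀ x, ι (ι x) = x) (hιq : ι q = q'') : ι q'' = q := by
  rw [← hιq, hι]

/-- The involution and `J`. -/
theorem Im_Jq [NeZero (2 : E)] (h : HJ a ρ σ α q q' q'')
    (hιρ : ∀ x, ι (ρ x) = ρ (ρ (ι x))) (hισ : ∀ x, ι (σ x) = σ (ι x)) (hια : ι α = α)
    (hιq : ι q = q'') (x : OctL E a b c) :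
    q • Im ι (Jq σ α q q' x) = q'' • Jq σ α q q' (Im ι x) := by
  have hc : ∀ y : Qt (up E a) (up E b), qmap ι (qmap σ y) = qmap σ (qmap ι y) := fun y => by
    ext <;> simp [hισ]
  have e1 : qmap ι (star (mq a b α (q * q'))) = (q' * q'') • mq a b α q := by
    rw [qmap_star, qmap_mq hια, map_mul, hιq, iq1 h hιρ hιq, star_mq, mq_eq, smul_mk4, mul_one,
      mul_zero, mul_comm q'' q', h.N1]
  have e2 : qmap ι (star (mq a b α q)) = q'' • mq a b α (q * q') := by
    rw [qmap_star, qmap_mq hια, hιq, star_mq, mq_eq, smul_mk4, mul_one,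
      mul_zero, ← mul_assoc, h.N2]
  have e3 : qmap ι (mq a b α q * star (mq a b α (q * q'))) =
      (q' * q'') • (mq a b α q'' * mq a b α q) := by
    rw [qmap_mul, e1, qmap_mq hια, hιq, mul_smul_comm]
  have e4 : star (mq a b α (q * q')) = (q * q') • mq a b α q'' := by
    rw [star_mq, mq_eq, smul_mk4, mul_one, mul_zero, h.N]
  ext1
  · rw [fst_smul, fst_smul, fst_Im, fst_Jq, fst_Jq, fst_Im, star_mul, star_mul, qmap_mul,
      qmap_mul, e1, e2, ← qmap_star, hc, smul_mul_assoc, mul_smul_comm, mul_smul_comm, smul_smul,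
      smul_smul, mul_assoc, show q * (q' * q'' * q'') = q'' by linear_combination q'' * h.N,
      ← mul_assoc (mq a b α q)]
  · rw [snd_smul, snd_smul, snd_Im, snd_Jq, snd_Jq, snd_Im, qmap_mul, e3, hc, e4, mul_smul_comm,
      mul_smul_comm, mul_smul_comm, smul_neg, qmap_neg, neg_mul, smul_neg, smul_neg, smul_smul,
      smul_smul, mq_mul h.al, mq_mul h.al, mul_comm q'' q,
      show q * (q' * q'') = q'' * (q * q') by ring]

/-- The similitudes `zFun` commute with the involution. -/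
theorem zFun_Im (hι : ∀ x, ι (ι x) = x) (hρ3 : ∀ x, ρ (ρ (ρ x)) = x)
    (hιρ : ∀ x, ι (ρ x) = ρ (ρ (ι x))) {X w : Qt (up E a) (up E b)} {t : E}
    (hX : qmap ι X = qmap ρ (qmap ρ X)) (hw : qmap ι w = w) (ht : ι t = t) (x : OctL E a b c) :
    zFun ρ X w t (Im ι x) = Im ι (zFun ρ X w t x) := by
  have h1 : qmap ι (qmap ρ (qmap ρ X)) = X := by
    rw [← hX]
    ext <;> simp [hι]
  have h2 : qmap ι (qmap ρ X) = qmap ρ X := by
    have : qmap ι (qmap ρ X) = qmap ρ (qmap ρ (qmap ι X)) := by ext <;> simp [hιρ]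
    rw [this, hX]
    ext <;> simp [hρ3]
  ext1
  · rw [fst_zFun, fst_Im, fst_Im, fst_zFun, star_mul, star_mul, star_star, qmap_mul, qmap_mul, h1,
      qmap_star ι X, hX, mul_assoc]
  · rw [snd_zFun, snd_Im, snd_Im, snd_zFun, qmap_smul, qmap_mul, qmap_mul, qmap_star, h2, hw, ht,
      mul_neg, neg_mul, smul_neg]

end rel

end im

section model

variable {k L E : Type} [Field k] [Field L] [Field E] [Algebra k L] [Algebra k E] [Algebra L E]
  [IsScalarTower k L E] {ρ σ ι : E ≃ₐ[k] E} {α : E} {a b c : kˣ} {q : Lˣ}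

theorem Jm_eq_Jq (x : OctL E a b c) : Jm ρ σ α q x =
    Jq σ α (algebraMap L E (q : L)) (ρ (algebraMap L E (q : L))) x := rfl

namespace HyI

theorem hj (H : HyI ρ σ ι α a b c q) : HJ a ρ σ α (algebraMap L E (q : L))
    (ρ (algebraMap L E (q : L))) (ρ (ρ (algebraMap L E (q : L)))) where
  al := H.α2
  ra := H.ρα
  sa := H.σα
  r0 := rfl
  r1 := rfl
  r2 := H.ρ3 _
  s0 := H.σL _
  N := H.hq
  rs x := (H.comm x).symm
  r3 := H.ρ3
  s2 := H.σ2

variable (H : HyI ρ σ ι α a b c q)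

include H

theorem ισ (x : E) : ι (σ x) = σ (ι x) := (H.σι x).symm

theorem ιρρ (x : E) : ι (ρ (ρ x)) = ρ (ι x) := by
  rw [H.ιρ, H.ιρ, H.ρ3]

/-- `ι` and the conjugates of the elements of `L`. -/
theorem ιρL' (t : L) : ι (ρ (algebraMap L E t)) = ρ (algebraMap L E t) := by
  rw [H.ιρ, H.ιL, H.ρ3]

theorem ιρρL (t : L) : ι (ρ (ρ (algebraMap L E t))) = algebraMap L E t := by
  rw [H.ιρρ, H.ιL, H.ρ3]

theorem σρL (t : L) : σ (ρ (algebraMap L E t)) = ρ (algebraMap L E t) := by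
  rw [H.comm, H.σL]

theorem σρρL (t : L) : σ (ρ (ρ (algebraMap L E t))) = ρ (ρ (algebraMap L E t)) := by
  rw [H.comm, H.σρL]

/-- The elements fixed by `σ` and `ι`. -/
theorem fixρL {e : E} (h1 : σ e = e) (h2 : ι e = e) : ∃ t : L, ρ (algebraMap L E t) = e := by
  obtain ⟨t, ht⟩ := H.fixL (ρ (ρ e)) (by rw [H.comm, H.comm, h1]) (by
    rw [H.ιρρ, h2, H.ρ3])
  exact ⟨t, by rw [ht, H.ρ3]⟩

theorem q_ne : algebraMap L E (q : L) ≠ 0 := H.hj.q_ne

variable [NeZero (2 : E)]

theorem Jm_add (x y : OctL E a b c) : Jm ρ σ α q (x + y) = Jm ρ σ α q x + Jm ρ σ α q y :=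
  Jq_add _ _ x y

theorem Jm_smul (t : E) (x : OctL E a b c) : Jm ρ σ α q (t • x) = σ t • Jm ρ σ α q x :=
  Jq_smul _ _ t x

theorem Jm_tri (x y : OctL E a b c) :
    Jm ρ σ α q (tri ρ x y) = rr ρ q • tri ρ (Jm ρ σ α q x) (Jm ρ σ α q y) := by
  rw [rr, ← mul_assoc]
  exact H.hj.Jq_tri x y

theorem Jm_Jm (x : OctL E a b c) : Jm ρ σ α q (Jm ρ σ α q x) = rr ρ q • x := by
  have h := H.hj
  rw [rr, ← mul_assoc]
  set q0 := algebraMap L E (q : L) with hq0
  set q1 := ρ q0 with hq1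
  have e1 : mq a b α q0 * qmap σ (mq a b α q0) = q0 • 1 := by
    rw [qmap_mq' h.sa, h.s0, mq_star h.al]
  have e2 : qmap σ (mq a b α (q0 * q1)) * mq a b α (q0 * q1) = (q0 * q1) • 1 := by
    rw [qmap_mq' h.sa, map_mul, h.s0, h.s1, star_mq_mul h.al]
  have e3 : qmap σ (mq a b α q0 * star (mq a b α (q0 * q1))) *
      (mq a b α q0 * star (mq a b α (q0 * q1))) = (q0 * q0 * q1) • 1 := by
    rw [h.m0, qmap_mk4' h.sa, map_zero, map_mul, h.s0, h.s1, diag_mul h.al, ← diag_one (α := α)]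
    congr 1
    · ring
    · ring
  rw [Jm_eq_Jq, Jm_eq_Jq]
  apply Oct.ext
  · rw [fst_Jq, fst_Jq, qmap_mul, qmap_mul, h.qinv, fst_smul]
    rw [show mq a b α q0 * (qmap σ (mq a b α q0) * x.fst * qmap σ (mq a b α (q0 * q1))) *
      mq a b α (q0 * q1) = (mq a b α q0 * qmap σ (mq a b α q0)) * x.fst *
        (qmap σ (mq a b α (q0 * q1)) * mq a b α (q0 * q1)) by simp only [mul_assoc], e1, e2,
      smul_mul_assoc, one_mul, mul_smul_comm, mul_one, smul_smul]
    congr 1
    ring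
  · rw [snd_Jq, snd_Jq, qmap_mul, h.qinv, snd_smul, mul_assoc, e3, mul_smul_comm, mul_one]

theorem norm_Jm (x : OctL E a b c) : norm (Jm ρ σ α q x) = rr ρ q * σ (norm x) := by
  have h := H.hj
  have hc : σ ((up E c : Eˣ) : E) = ((up E c : Eˣ) : E) := σ.commutes _
  rw [rr, ← mul_assoc, Jm_eq_Jq]
  unfold Oct.norm
  rw [fst_Jq, snd_Jq, nrd_mul_q, nrd_mul_q, nrd_mul_q, nrd_mul_q, nrd_star_q, nrd_mq h.al,
    nrd_mq h.al, nrd_qmap, nrd_qmap, map_sub, map_mul, hc]
  ring

theorem bil_Jm (x y : OctL E a b c) :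
    bil (Jm ρ σ α q x) (Jm ρ σ α q y) = rr ρ q * σ (bil x y) := by
  unfold Oct.bil
  rw [← H.Jm_add, H.norm_Jm, H.norm_Jm, H.norm_Jm, map_sub, map_sub]
  ring

theorem Im_tri' (x y : OctL E a b c) : Im ι (tri ρ x y) = tri ρ (Im ι y) (Im ι x) :=
  Im_tri H.ρ3 H.ιρ x y

theorem Im_Im' (x : OctL E a b c) : Im ι (Im ι x) = x := Im_Im H.ι2 x

/-- The involution and `J`: `q I J = ρ²(q) J I`. -/
theorem Im_Jm (x : OctL E a b c) : algebraMap L E (q : L) • Im ι (Jm ρ σ α q x) =
    ρ (ρ (algebraMap L E (q : L))) • Jm ρ σ α q (Im ι x) :=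
  Im_Jq H.hj H.ιρ H.ισ H.ια (H.ιL _) x

/-- The involution and `J`: `I J = (ρ²(q) / q) J I`. -/
theorem Im_Jm' (x : OctL E a b c) : Im ι (Jm ρ σ α q x) =
    (ρ (ρ (algebraMap L E (q : L))) / algebraMap L E (q : L)) • Jm ρ σ α q (Im ι x) := by
  rw [div_eq_inv_mul, ← smul_smul, ← H.Im_Jm, smul_smul, inv_mul_cancel₀ H.q_ne, one_smul]

/-! ### The quaternion algebra `Q₁` -/

theorem psiL_eq (x : Qt (up L a) (q * up L b)) : (psiL α q x : Qt (up E a) (up E b)) =
    mk4 (up E a) (up E b) α (algebraMap L E x.re + algebraMap L E x.imI * α)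
      (algebraMap L E x.re - algebraMap L E x.imI * α)
      (algebraMap L E (q : L) * (algebraMap L E x.imJ + algebraMap L E x.imK * α))
      (algebraMap L E x.imJ - algebraMap L E x.imK * α) := by
  have h0 := al_ne (a := up E a) H.α2
  have h2 : (2 : E) ≠ 0 := NeZero.ne _
  ext
  · simp only [psiL, D4X.mk4]
    field_simp
    ring
  · simp only [psiL, D4X.mk4]
    field_simp
    ring
  · rfl
  · rfl

theorem psiL_mul (x y : Qt (up L a) (q * up L b)) :
    (psiL α q (x * y) : Qt (up E a) (up E b)) = psiL α q x * psiL α q y := by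
  have hα := H.α2
  have ha : algebraMap L E (algebraMap k L (a : k)) = α * α := by
    rw [hα, ← IsScalarTower.algebraMap_apply]
  have hb : algebraMap L E (algebraMap k L (b : k)) = algebraMap k E (b : k) := by
    rw [← IsScalarTower.algebraMap_apply]
  rw [psiL_eq H, psiL_eq H, psiL_eq H, mk4_mul hα]
  have e1 : ((up L a : Lˣ) : L) = algebraMap k L (a : k) := rfl
  have e2 : ((q * up L b : Lˣ) : L) = (q : L) * algebraMap k L (b : k) := rfl
  have e3 : ((up E b : Eˣ) : E) = algebraMap k E (b : k) := rfl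
  congr 1
  all_goals
    simp only [QuaternionAlgebra.re_mul, QuaternionAlgebra.imI_mul, QuaternionAlgebra.imJ_mul,
      QuaternionAlgebra.imK_mul, map_add, map_sub, map_mul, map_zero, e1, e2, e3, ha, hb]
    ring

theorem nrd_psiL (x : Qt (up L a) (q * up L b)) :
    nrd (psiL α q x : Qt (up E a) (up E b)) = algebraMap L E (nrd x) := by
  have hα := H.α2
  have ha : algebraMap L E (algebraMap k L (a : k)) = α * α := by
    rw [hα, ← IsScalarTower.algebraMap_apply]
  have hb : algebraMap L E (algebraMap k L (b : k)) = algebraMap k E (b : k) := by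
    rw [← IsScalarTower.algebraMap_apply]
  have e1 : ((up L a : Lˣ) : L) = algebraMap k L (a : k) := rfl
  have e2 : ((q * up L b : Lˣ) : L) = (q : L) * algebraMap k L (b : k) := rfl
  have e3 : ((up E b : Eˣ) : E) = algebraMap k E (b : k) := rfl
  rw [psiL_eq H, nrd_mk4 hα]
  simp only [nrd, map_add, map_sub, map_mul, map_pow, e1, e2, e3, ha, hb]
  ring

/-- The image of `Q₁`. -/
theorem mk4_mem {s s' T T' : E} (h1 : σ s = s') (h2 : T = algebraMap L E (q : L) * σ T')
    (h3 : ι s = ρ (ρ s)) (h4 : ι T' = ρ (ρ T')) :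
    ∃ y : Qt (up L a) (q * up L b), psiL α q y = mk4 (up E a) (up E b) α s s' T T' := by
  have h0 := al_ne (a := up E a) H.α2
  have h2' : (2 : E) ≠ 0 := NeZero.ne _
  have h3' : ι s' = ρ (ρ s') := by rw [← h1, H.ισ, h3, H.comm, H.comm]
  have h4' : ι (σ T') = ρ (ρ (σ T')) := by rw [H.ισ, h4, H.comm, H.comm]
  obtain ⟨u, hu⟩ := H.fixL ((s + s') / 2) (by
    rw [map_div₀, map_add, h1, ← h1, H.σ2, map_ofNat, add_comm]) (by
    simp only [map_div₀, map_add, h3, h3', map_ofNat])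
  obtain ⟨v, hv⟩ := H.fixL ((s - s') / (2 * α)) (by
    rw [map_div₀, map_sub, ← h1, H.σ2, map_mul, map_ofNat, H.σα, mul_neg, div_neg, ← neg_div,
      neg_sub]) (by
    simp only [map_div₀, map_sub, map_mul, h3, h3', map_ofNat, H.ια, H.ρα])
  obtain ⟨w, hw⟩ := H.fixL ((σ T' + T') / 2) (by
    rw [map_div₀, map_add, H.σ2, map_ofNat, add_comm]) (by
    simp only [map_div₀, map_add, h4, h4', map_ofNat])
  obtain ⟨z, hz⟩ := H.fixL ((σ T' - T') / (2 * α)) (by
    rw [map_div₀, map_sub, H.σ2, map_mul, map_ofNat, H.σα, mul_neg, div_neg, ← neg_div,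
      neg_sub]) (by
    simp only [map_div₀, map_sub, map_mul, h4, h4', map_ofNat, H.ια, H.ρα])
  refine ⟨⟨u, v, w, z⟩, ?_⟩
  rw [psiL_eq H]
  simp only [hu, hv, hw, hz]
  rw [h2]
  congr 1
  all_goals
    field_simp
    try ring

theorem exists_psiL (x : Qt (up E a) (up E b))
    (hx : mq a b α (algebraMap L E q) * qmap σ x = x * mq a b α (algebraMap L E q))
    (hι : qmap ι x = qmap ρ (qmap ρ x)) :
    ∃ y : Qt (up L a) (q * up L b), psiL α q y = x := by
  have h := H.hj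
  have i0 : ι x.re = ρ (ρ x.re) := congrArg QuaternionAlgebra.re hι
  have i1 : ι x.imI = ρ (ρ x.imI) := congrArg QuaternionAlgebra.imI hι
  have i2 : ι x.imJ = ρ (ρ x.imJ) := congrArg QuaternionAlgebra.imJ hι
  have i3 : ι x.imK = ρ (ρ x.imK) := congrArg QuaternionAlgebra.imK hι
  have hs : ι (x.re + x.imI * α) = ρ (ρ (x.re + x.imI * α)) := by
    simp only [map_add, map_mul, i0, i1, H.ια, H.ρα]
  have hT : ι (x.imJ - x.imK * α) = ρ (ρ (x.imJ - x.imK * α)) := by
    simp only [map_sub, map_mul, i2, i3, H.ια, H.ρα]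
  rw [mk4_surj h.al x] at hx ⊢
  generalize x.re + x.imI * α = s at *
  generalize x.re - x.imI * α = s' at *
  generalize x.imJ + x.imK * α = T at *
  generalize x.imJ - x.imK * α = T' at *
  rw [qmap_mk4' h.sa, mq_eq, mk4_mul h.al, mk4_mul h.al] at hx
  obtain ⟨e1, e2, e3, e4⟩ := mk4_inj h.al hx
  refine mk4_mem H ?_ ?_ hs hT
  · linear_combination e2
  · linear_combination -e3

theorem psiL_comm (x : Qt (up L a) (q * up L b)) :
    mq a b α (algebraMap L E q) * qmap σ (psiL α q x) = psiL α q x *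
      mq a b α (algebraMap L E q) := by
  have h := H.hj
  rw [psiL_eq H, qmap_mk4' h.sa, mq_eq, mk4_mul h.al, mk4_mul h.al]
  simp only [map_add, map_sub, map_mul, H.σL, h.sa]
  congr 1
  all_goals ring

theorem psiL_iota (x : Qt (up L a) (q * up L b)) :
    qmap ι (psiL α q x : Qt (up E a) (up E b)) = qmap ρ (qmap ρ (psiL α q x)) := by
  ext
  · exact H.ιL _
  · exact H.ιL _
  · change ι (_ / _) = ρ (ρ (_ / _))
    simp only [map_div₀, map_add, map_sub, map_mul, H.ιL, H.ια, H.ρα, map_ofNat]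
  · change ι (_ / _) = ρ (ρ (_ / _))
    simp only [map_div₀, map_add, map_sub, map_mul, H.ιL, H.ια, H.ρα, map_ofNat]

/-- The element `z(x₀, x; s)` commutes with the involution. -/
theorem zFI_Im (x0 : Qt a b) (x : Qt (up L a) (q * up L b)) (s : kˣ) (y : OctL E a b c) :
    zFI ρ α q x0 x s (Im ι y) = Im ι (zFI ρ α q x0 x s y) := by
  refine zFun_Im H.ι2 H.ρ3 H.ιρ (H.psiL_iota x) (qmap_qup ι x0) ?_ y
  have hs : ι (algebraMap k E (s : k)) = algebraMap k E (s : k) := ι.commutes _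
  rw [map_div₀, map_mul, hs, H.ιL, H.ιρρL, mul_comm]

end HyI

end model

end Vale.Agent.P011.D4Y
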