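import Vale.Agent.P011.D4Y.H862.Good
import Vale.Agent.P011.D4Y.H862.Bas
import Vale.Agent.P011.D4Y.H657.Bas
import Vale.Agent.P011.D4Y.H691.Na
import Vale.Agent.P011.D4Y.H63.RamOdd
import Vale.Agent.P011.D4Y.H68.Nf
import Vale.Agent.P011.D4X.H862.Short

/-!
Block D4Y: the short subgroup lies in the finite residual (from the tori of good type).
-/

open NumberField IsDedekindDomain Topology

namespace Vale.Agent.P011.D4Y

open Vale.Agent.P011.Arith Vale.Agent.P011.MPQ Vale.Agent.P011.D4 Vale.Agent.P011.D4.Oct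
  Vale.Agent.P011.E6 Vale.Agent.P011.D4X

/-- A quaternion algebra which is definite at some real place is a division algebra. -/
theorem aniso_of_real {F : Type} [Field F] {A B : Fˣ} (w : F →+* ℝ) (hA : w A < 0) (hB : w B < 0) :
    Aniso A B := by
  intro x hx
  have h1 := congrArg w hx
  simp only [nrd, map_add, map_sub, map_mul, map_pow, map_zero] at h1
  have g1 : 0 ≤ (-w A) * w x.imI ^ 2 := by
    have := neg_pos.2 hA
    positivity
  have g2 : 0 ≤ (-w B) * w x.imJ ^ 2 := by
    have := neg_pos.2 hB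
    positivity
  have g3 : 0 ≤ (-w A) * (-w B) * w x.imK ^ 2 := by
    have := neg_pos.2 hB
    have := neg_pos.2 hA
    positivity
  have g0 : 0 ≤ w x.re ^ 2 := sq_nonneg _
  have z0 : w x.re ^ 2 = 0 := by nlinarith
  have z1 : (-w A) * w x.imI ^ 2 = 0 := by nlinarith
  have z2 : (-w B) * w x.imJ ^ 2 = 0 := by nlinarith
  have z3 : (-w A) * (-w B) * w x.imK ^ 2 = 0 := by nlinarith
  have n1 : -w A ≠ 0 := (neg_pos.2 hA).ne'
  have n2 : -w B ≠ 0 := (neg_pos.2 hB).ne'
  have y0 : x.re = 0 := by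
    rw [pow_eq_zero_iff two_ne_zero, map_eq_zero] at z0
    exact z0
  have y1 : x.imI = 0 := by
    have := (mul_eq_zero.1 z1).resolve_left n1
    rw [pow_eq_zero_iff two_ne_zero, map_eq_zero] at this
    exact this
  have y2 : x.imJ = 0 := by
    have := (mul_eq_zero.1 z2).resolve_left n2
    rw [pow_eq_zero_iff two_ne_zero, map_eq_zero] at this
    exact this
  have y3 : x.imK = 0 := by
    have := (mul_eq_zero.1 z3).resolve_left (mul_ne_zero n1 n2)
    rw [pow_eq_zero_iff two_ne_zero, map_eq_zero] at this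
    exact this
  ext
  · exact y0
  · exact y1
  · exact y2
  · exact y3

section

variable {k L E : Type} [Field k] [Field L] [Field E]
  [Algebra k L] [Algebra k E] [Algebra L E]
  [IsScalarTower k L E] {ρ σ ι : E ≃ₐ[k] E} {α : E}
  {a b c : kˣ} {q : Lˣ} (H : HyI ρ σ ι α a b c q)

include H

omit [IsScalarTower k L E] in
/-- The field `E` is algebraic over `k`. -/
theorem HyI.isIntegral (x : E) : IsIntegral k x := by
  have quad : ∀ y u v : E, IsIntegral k u → IsIntegral k v → y * y - u * y + v = 0 →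
      IsIntegral k y := by
    intro y u v hu hv h
    let A := integralClosure k E
    have h1 : IsIntegral A y := by
      refine ⟨Polynomial.X ^ 2 - Polynomial.C (⟨u, hu⟩ : A) * Polynomial.X +
        Polynomial.C (⟨v, hv⟩ : A), ?_, ?_⟩
      · monicity!
      · simp only [Polynomial.eval₂_add, Polynomial.eval₂_sub, Polynomial.eval₂_mul,
          Polynomial.eval₂_pow, Polynomial.eval₂_X, Polynomial.eval₂_C]
        change y ^ 2 - u * y + v = 0
        rw [← h]; ring
    exact isIntegral_trans (R := k) (A := A) y h1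
  have hk : ∀ y : E, ρ y = y → σ y = y → ι y = y → IsIntegral k y := fun y h1 h2 h3 => by
    obtain ⟨t, rfl⟩ := H.fixk y h1 h2 h3
    exact isIntegral_algebraMap
  have h1 : ∀ y : E, ρ y = y → σ y = y → IsIntegral k y := fun y h1 h2 => by
    have e1 : ρ (ι y) = ι y := by
      have := H.ιρ (ρ y)
      rw [h1, h1] at this
      have h4 : ι (ρ (ρ y)) = ρ (ι y) := by rw [H.ιρ, H.ιρ, H.ρ3]
      rw [h1, h1] at h4
      exact h4.symm
    have e2 : σ (ι y) = ι y := by rw [H.σι, h2]
    refine quad y (y + ι y) (y * ι y) (hk _ ?_ ?_ ?_) (hk _ ?_ ?_ ?_) (by ring)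
    · rw [map_add, h1, e1]
    · rw [map_add, h2, e2]
    · rw [map_add, H.ι2, add_comm]
    · rw [map_mul, h1, e1]
    · rw [map_mul, h2, e2]
    · rw [map_mul, H.ι2, mul_comm]
  have h2 : ∀ y : E, ρ y = y → IsIntegral k y := fun y h2 => by
    have e1 : ρ (σ y) = σ y := by rw [← H.comm, h2]
    refine quad y (y + σ y) (y * σ y) (h1 _ ?_ ?_) (h1 _ ?_ ?_) (by ring)
    · rw [map_add, h2, e1]
    · rw [map_add, H.σ2, add_comm]
    · rw [map_mul, h2, e1]
    · rw [map_mul, H.σ2, mul_comm]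
  have c1 : IsIntegral k (x + ρ x + ρ (ρ x)) := h2 _ (by
    rw [map_add, map_add, H.ρ3]; ring)
  have c2 : IsIntegral k (x * ρ x + ρ x * ρ (ρ x) + ρ (ρ x) * x) := h2 _ (by
    rw [map_add, map_add, map_mul, map_mul, map_mul, H.ρ3]; ring)
  have c3 : IsIntegral k (x * ρ x * ρ (ρ x)) := h2 _ (by
    rw [map_mul, map_mul, H.ρ3]; ring)
  let A := integralClosure k E
  have h3 : IsIntegral A x := by
    refine ⟨Polynomial.X ^ 3 - Polynomial.C (⟨_, c1⟩ : A) * Polynomial.X ^ 2 +
      Polynomial.C (⟨_, c2⟩ : A) * Polynomial.X - Polynomial.C (⟨_, c3⟩ : A), ?_, ?_⟩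
    · monicity!
    · simp only [Polynomial.eval₂_add, Polynomial.eval₂_sub, Polynomial.eval₂_mul,
        Polynomial.eval₂_pow, Polynomial.eval₂_X, Polynomial.eval₂_C]
      change x ^ 3 - (x + ρ x + ρ (ρ x)) * x ^ 2 + (x * ρ x + ρ x * ρ (ρ x) + ρ (ρ x) * x) * x -
        x * ρ x * ρ (ρ x) = 0
      ring
  exact isIntegral_trans (R := k) (A := A) x h3

omit [IsScalarTower k L E] in
/-- The embeddings over a real place. -/
theorem HyI.exists_emb (τ : k →+* ℝ) : ∃ W : E →+* ℂ, ∀ t, W (algebraMap k E t) = τ t := by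
  let _ : Algebra k ℂ := (Complex.ofRealHom.comp τ).toAlgebra
  have : Algebra.IsAlgebraic k E := ⟨fun x => (H.isIntegral x).isAlgebraic⟩
  exact ⟨(IsAlgClosed.lift : E →ₐ[k] ℂ).toRingHom, fun t =>
    (IsAlgClosed.lift : E →ₐ[k] ℂ).commutes t⟩

/-- The quaternion algebra `Q₁` is a division algebra. -/
theorem HyI.aniso1 [NumberField k] : Aniso (up L a) (q * up L b) := by
  obtain ⟨w, ha, hb, -, hq⟩ := H.cpL
  refine aniso_of_real w ha ?_
  change w ((q : L) * algebraMap k L b) < 0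
  rw [map_mul]
  exact mul_neg_of_pos_of_neg hq hb

end

section

variable {k L E : Type} [Field k] [NumberField k] [Field L] [NumberField L] [Field E]
  [Algebra k L] [Algebra k E] [Algebra L E]
  [IsScalarTower k L E] [NeZero (2 : E)] {ρ σ ι : E ≃ₐ[k] E} {α : E}
  {a b c : kˣ} {q : Lˣ} (H : HyI ρ σ ι α a b c q)

include H

/-- The short subgroup lies in the finite residual. -/
theorem short_mem_of (ho : HOdd a q)
    (hTor : ∀ {x : SL1 (up L a) (q * up L b)} {D : k} {w : Qt (up L a) (q * up L b)},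
      GoodD a b q D → (∀ e : E, e * e ≠ algebraMap k E D) → w.re = 0 →
      w * w = algebraMap k L D • 1 → ∀ {s t : L},
      ((x : (Qt (up L a) (q * up L b))ˣ) : Qt (up L a) (q * up L b)) = s • 1 + t • w →
      ∀ {g : OctL E a b c ≃ₗ[E] OctL E a b c},
      (∀ y : OctL E a b c, g y = shortFun ρ (psiL α q ((x : (Qt (up L a) (q * up L b))ˣ) :
        Qt (up L a) (q * up L b))) y) → g ∈ RsI ρ σ ι α a b c q)
    {x : SL1 (up L a) (q * up L b)} {g : OctL E a b c ≃ₗ[E] OctL E a b c}
    (hg : ∀ y : OctL E a b c, g y = shortFun ρ (psiL α q ((x : (Qt (up L a) (q * up L b))ˣ) :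
      Qt (up L a) (q * up L b))) y) : g ∈ RsI ρ σ ι α a b c q := by
  classical
  choose S hS1 hS2 using exists_shortI (c := c) H
  have hmul : ∀ x y, S (x * y) = S x * S y := by
    intro x y
    apply LinearEquiv.ext
    intro z
    rw [LinearEquiv.mul_apply, hS2, hS2, hS2, ← Em.shortFun_mul, ← H.psiL_mul]
    rfl
  let s : SL1 (up L a) (q * up L b) →* GTI ρ σ ι α a b c q :=
    MonoidHom.mk' (fun x => ⟨S x, hS1 x⟩) fun x y => Subtype.ext (hmul x y)
  have hgS : g = S x := by
    apply LinearEquiv.ext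
    intro y
    rw [hg, hS2]
  rw [hgS, mem_RsI]
  refine ⟨hS1 x, ?_⟩
  rw [mem_fres]
  intro N hN
  have hfi : N.FiniteIndex := ⟨hN⟩
  have hNc : N.normalCore.index ≠ 0 := (inferInstance : N.normalCore.FiniteIndex).index_ne_zero
  apply Subgroup.normalCore_le N
  suffices h : N.normalCore.comap s = ⊤ by
    have : x ∈ N.normalCore.comap s := by rw [h]; exact Subgroup.mem_top x
    exact this
  obtain ⟨T, hT, hT'⟩ := H.exists_avoid
  obtain ⟨c', D, hD, h1, g2, g3, g4, h4, h5⟩ := exists_DI (k := k) (L := L) H.h3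
    H.hdiv.aniso ho (Finset.univ.image T)
  have hneg : ∃ τ : k →+* ℝ, τ D < 0 := by
    obtain ⟨τ, ha, hb, -⟩ := exists_dfn H.hdiv
    exact ⟨τ, (h4 τ).2 ha⟩
  have hns : ∀ e : E, e * e ≠ algebraMap k E D := by
    refine hT' D (fun r hr => ?_) fun i r hr => ?_
    · obtain ⟨τ, hτ⟩ := hneg
      rw [hr, map_pow] at hτ
      exact absurd hτ (not_lt.2 (sq_nonneg _))
    · refine h5 (T i) (Finset.mem_image_of_mem _ (Finset.mem_univ i)) ⟨T i * r, ?_⟩
      rw [hr]
      ring
  refine sl1_top (D := up L D) (c := algebraMap k L c') H.aniso1 ?_ h1 g4 _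
    (N.normalCore_normal.comap s) (index_comap_ne' s hNc) ?_
  · change algebraMap k L (D : k) = _
    rw [hD, map_add, map_mul, map_one, map_ofNat]
  · intro w hw0 hww y p r hy
    have h8 := hTor (x := y) ⟨D.ne_zero, g2, g3, g4, fun τ hτ => (h4 τ).1 hτ⟩ hns hw0 hww hy
      (g := S y) (hS2 y)
    obtain ⟨h6, h7⟩ := mem_RsI.1 h8
    exact mem_fres.1 h7 _ hNc

end

end Vale.Agent.P011.D4Y
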